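import Vale.Agent.P144Z.Top
import Vale.Agent.P144Z.RN.Shr
import Vale.Agent.P144Z.E5.Main

/-!
Block R4a: change of scale in flat regions, above the cluster, and near isolated fluxes.
-/

namespace Vale.Agent.P144Z

open Finset Matrix Filter Topology

namespace R4a

open RN

theorem Shr.enlarge {M : ℕ} [NeZero M] {A : Gauge M} {ℓ ρ ℓ' : ℕ} {z : Tor M} {κ : ℝ}
    (h : Shr A ℓ ρ z κ) (h1 : ρ ≤ ℓ') (h2 : ℓ' ≤ 4 * ρ) : Shr A ℓ ℓ' z (2 * κ) := fun u => by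
  have a1 := h u
  have a2 := hsq_mono A (Nat.cast_nonneg ρ) (by exact_mod_cast h1 : (ρ : ℝ) ≤ ℓ')
    (E3.ball_mono z (by omega : 2 * ρ ≤ 2 * ℓ')) u
  have a3 : (ℓ' : ℝ) ≤ 4 * ρ := by exact_mod_cast h2
  have a4 := mul_le_mul_of_nonneg_left a3 (hsq_nonneg A ℓ (ball z (2 * ℓ)) u)
  have a5 := mul_le_mul_of_nonneg_left a2 (by positivity : (0 : ℝ) ≤ κ ^ 2 * ℓ)
  nlinarith

theorem pow_le_exp {a x : ℝ} (ha : 0 ≤ a) {n : ℕ} (hn : (n : ℝ) ≤ 1 + 2 * x) :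
    a ^ n ≤ Real.exp a * Real.exp (2 * a * x) := by
  rw [← Real.exp_add]
  refine (pow_le_pow_left₀ ha (b := Real.exp a) (by linarith [Real.add_one_le_exp a]) n).trans ?_
  rw [← Real.exp_nat_mul]
  exact Real.exp_le_exp.2 (by nlinarith)

theorem flux_small : ∃ C : ℝ, 1 ≤ C ∧ ∀ g : Geo, IsSign g.A → ∀ (ℓ ℓ' : ℕ) (h h' β : ℝ), 8 ≤ ℓ →
    C * ℓ ≤ ℓ' → 16 * ℓ' ≤ g.M → 0 < h → 0 < h' → h' ≤ 4 * h → 0 < β →
    (∀ f f', flux g.A f = -1 → flux g.A f' = -1 → f ≠ f' → 4 * ℓ' < tdist f f') →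
    ∀ U : Finset g.P, ∀ F ∈ g.sub U, stein U ≤ ℓ → g.noF F = 0 →
      g.pn ℓ' h' β U F ≤ C * √((ℓ : ℝ) / ℓ') * g.pn ℓ h β U F := by
  obtain ⟨C₂, hC₂, h2⟩ := pn_flux_small
  obtain ⟨C₃, hC₃, h3⟩ := shr_flat
  set a := 12 * (C₂ + C₃) with ha
  have ha1 : 24 ≤ a := by linarith
  refine ⟨4 * a ^ 2, by nlinarith, fun g hA ℓ ℓ' h h' β h8 hl hM hh hh' h4 hβ hs U F hF hU h0 => ?_⟩
  have l0 : (8 : ℝ) ≤ ℓ := by exact_mod_cast h8
  have l1 : 32 * ℓ ≤ ℓ' := by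
    have : (32 : ℝ) * ℓ ≤ ℓ' :=
      le_trans (mul_le_mul_of_nonneg_right (by nlinarith) (by linarith)) hl
    exact_mod_cast this
  have l2 : (0 : ℝ) < ℓ' := by exact_mod_cast (by omega : 0 < ℓ')
  set t := √((ℓ : ℝ) / ℓ') with ht
  have t0 : 0 < t := Real.sqrt_pos.2 (by positivity)
  have t1 : t ^ 2 * ℓ' = ℓ := by
    rw [ht, Real.sq_sqrt (by positivity), div_mul_cancel₀ _ l2.ne']
  have r0 : 0 < a * t := by positivity
  have r1 : a * t ≤ 1 / 2 := by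
    refine (sq_le_sq₀ r0.le (by norm_num)).1 (le_of_mul_le_mul_right ?_ l2)
    rw [mul_pow, mul_assoc, t1]
    linarith
  have p0 : 0 ≤ g.pn ℓ h β U F := pn_nonneg F
  by_cases hc : ∃ f, flux g.A f = -1 ∧ ∃ z ∈ U, tdist f z ≤ ℓ' - ℓ
  · obtain ⟨f, hf, z₀, hz₀, hd⟩ := hc
    refine (h2 g hA ℓ ℓ' (by omega) (by omega) (by omega) (by omega) f hf
      (fun f' hne hd' => flux_ne hA fun h5 => by have := hs f' f h5 hf hne; omega)
      h h' β (4 * C₂) (a * t) hh hh' hβ (by linarith) r0 r1 ?_ (by nlinarith) U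
      (fun z hz => ?_) F hF h0).trans (mul_le_mul_of_nonneg_right ?_ p0)
    · have e : (a * t) ^ 2 * h ^ 2 * ℓ' = a ^ 2 * h ^ 2 * ℓ := by rw [← t1]; ring
      have e1 : h' ^ 2 ≤ 16 * h ^ 2 := by nlinarith
      have e2 : 16 * C₂ ≤ a ^ 2 := by nlinarith
      rw [e]
      refine mul_le_mul_of_nonneg_right ?_ (by positivity)
      nlinarith [sq_nonneg h]
    · have e1 := tdist_le_stein hz hz₀
      have e2 := tdist_triangle z z₀ f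
      rw [tdist_comm z₀ f] at e2
      omega
    · have e : C₂ ≤ a / 4 := by linarith
      nlinarith
  · have e0 : ((ℓ' - ℓ : ℕ) : ℝ) = ℓ' - ℓ := Nat.cast_sub (by omega)
    have e1 : (32 : ℝ) * ℓ ≤ ℓ' := by exact_mod_cast l1
    refine (pn_small (κ := 2 * (a * t / 8)) (by omega) (by omega) hh hh' hβ le_rfl subset_rfl
      (by positivity) (fun z hz => Shr.enlarge (h3 g.M g.A hA z ℓ (ℓ' - ℓ) (by omega) (by omega)
        (by omega) (fun f hf => flux_ne hA fun h5 => hc ⟨f, h5, z, hz, hf⟩) _ ?_) (by omega)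
        (by omega)) r0 r1 (by nlinarith) hF h0).trans (mul_le_mul_of_nonneg_right ?_ p0)
    · have e2 : (a * t / 8) ^ 2 * ℓ' = a ^ 2 / 64 * ℓ := by rw [← t1]; ring
      have e3 : 128 * C₃ ≤ a ^ 2 := by nlinarith
      have e4 : (a * t / 8) ^ 2 * (ℓ' / 2) ≤ (a * t / 8) ^ 2 * (ℓ' - ℓ) :=
        mul_le_mul_of_nonneg_left (by linarith) (sq_nonneg _)
      rw [e0]
      nlinarith
    · nlinarith

end R4a

namespace Geo

section R4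
/-- Change of scale in a flat region. -/
theorem sch_flat : ∃ C : ℝ, 1 ≤ C ∧ ∀ g : Geo, IsSign g.A → ∀ ℓ ℓ' : ℕ, 1 ≤ ℓ → 2 * ℓ ≤ ℓ' →
    2 * ℓ' + 11 ≤ g.M → ∀ z, Flat g.A z ℓ' → g.Sch ℓ ℓ' (C * √((ℓ : ℝ) / ℓ')) z := by
  obtain ⟨C, hC, h1⟩ := RN.shr_flat
  refine ⟨C, hC, fun g hA ℓ ℓ' hℓ hl hM z hz => h1 g.M g.A hA z ℓ ℓ' hℓ hl hM hz _ ?_⟩
  have l2 : (0 : ℝ) < ℓ' := by exact_mod_cast (by omega : 0 < ℓ')
  rw [mul_pow, Real.sq_sqrt (by positivity), mul_assoc, div_mul_cancel₀ _ l2.ne']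
  exact mul_le_mul_of_nonneg_right (by nlinarith) (Nat.cast_nonneg ℓ)

/-- Change of scale far above the size of the cluster. -/
theorem sch_late : ∃ C₀ : ℝ, 1 ≤ C₀ ∧ ∀ Λ L : ℕ, 64 ≤ L → ∃ p : ℕ, ∀ (g : Geo) (A' : Gauge g.M)
    (c : g.P) (R r : ℕ), Cluster g.A A' c R r → 256 ≤ r → r ≤ R → R ≤ Λ * r → ∀ ℓ : ℕ, p * R ≤ ℓ →
    R ≤ ℓ → 8 * (L * ℓ) ≤ g.M → ∀ z, g.Sch ℓ (L * ℓ) (C₀ * √(√((L : ℝ)⁻¹))) z := by
  obtain ⟨C₀, hC₀, h1⟩ := late_est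
  refine ⟨C₀ + 1, by linarith, fun Λ L hL => ?_⟩
  obtain ⟨C, hC, h2⟩ := h1 Λ
  refine ⟨⌈(C * L) ^ 2⌉₊, fun g A' c R r hcl hr hrR hΛ ℓ hp hR hM z => RN.shr_of
    (h2 g.M g.A A' c R r hcl hr hrR hΛ z ℓ (L * ℓ) hR (Nat.mul_le_mul_right ℓ hL) hM) ?_⟩
  have l0 : (0 : ℝ) < ℓ := by exact_mod_cast (by omega : 0 < ℓ)
  have L0 : (0 : ℝ) < L := by exact_mod_cast (by omega : 0 < L)
  have e1 : (ℓ : ℝ) / (L * ℓ : ℕ) = (L : ℝ)⁻¹ := by push_cast; field_simp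
  have e2 : (R : ℝ) / (L * ℓ : ℕ) = (L : ℝ)⁻¹ * (R / ℓ) := by push_cast; field_simp
  have e3 : C * L * √((R : ℝ) / ℓ) ≤ 1 := by
    refine (sq_le_sq₀ (by positivity) zero_le_one).1 ?_
    rw [mul_pow, Real.sq_sqrt (by positivity), one_pow, ← mul_div_assoc, div_le_one l0]
    refine (mul_le_mul_of_nonneg_right (Nat.le_ceil _) (Nat.cast_nonneg R)).trans ?_
    exact_mod_cast hp
  rw [e1, e2, Real.sqrt_mul (by positivity), mul_pow, Real.sq_sqrt (Real.sqrt_nonneg _)]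
  set t := √((L : ℝ)⁻¹)
  have t0 : 0 ≤ t := Real.sqrt_nonneg _
  have e4 : (C₀ * (L : ℝ)⁻¹ * t + C * (t * √((R : ℝ) / ℓ))) * (L * ℓ : ℕ)
      = (C₀ + C * L * √((R : ℝ) / ℓ)) * t * ℓ := by push_cast; field_simp
  rw [e4]
  refine mul_le_mul_of_nonneg_right (mul_le_mul_of_nonneg_right ?_ t0) l0.le
  nlinarith

/-- Change of scale near isolated fluxes. -/
theorem pn_flux : ∃ C : ℝ, 1 ≤ C ∧ ∀ g : Geo, IsSign g.A → ∀ (ℓ ℓ' : ℕ) (h h' β : ℝ), 8 ≤ ℓ →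
    C * ℓ ≤ ℓ' → 16 * ℓ' ≤ g.M → 0 < h → 0 < h' → h' ≤ 4 * h → 0 < β →
    (∀ f f', flux g.A f = -1 → flux g.A f' = -1 → f ≠ f' → 4 * ℓ' < tdist f f') →
    ∀ U : Finset g.P, ∀ F ∈ g.sub U,
      g.pn ℓ' h' β U F ≤ C * Real.exp (C * stein U / ℓ') * g.pn ℓ h β U F ∧
      (stein U ≤ ℓ → g.noF F = 0 →
        g.pn ℓ' h' β U F ≤ C * √((ℓ : ℝ) / ℓ') * g.pn ℓ h β U F) := by
  classical
  obtain ⟨C₁, hC₁, h1⟩ := RN.pn_flux
  obtain ⟨C₂, hC₂, h2⟩ := R4a.flux_small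
  have x0 := Real.exp_pos (2 * (4 * C₁))
  refine ⟨Real.exp (2 * (4 * C₁)) + 32 * C₁ + C₂, by linarith,
    fun g hA ℓ ℓ' h h' β h8 hl hM hh hh' h4 hβ hs U F hF => ⟨?_, fun hU h0 => ?_⟩⟩
  · have l0 : (8 : ℝ) ≤ ℓ := by exact_mod_cast h8
    have l3 : 32 * C₁ * ℓ ≤ ℓ' := le_trans (by nlinarith) hl
    have l1 : 32 * ℓ ≤ ℓ' := by
      have : (32 : ℝ) * ℓ ≤ ℓ' := le_trans (by nlinarith) l3
      exact_mod_cast this
    have l2 : (0 : ℝ) < ℓ' := by exact_mod_cast (by omega : 0 < ℓ')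
    refine (h1 g hA ℓ ℓ' (by omega) (by omega) (by omega) (by omega)
      (fun f f' a b c => by have := hs f f' a b c; omega) h h' β (4 * C₁) hh hh' hβ (by linarith)
      ?_ (by nlinarith) U F hF).trans (mul_le_mul_of_nonneg_right ?_ (RN.pn_nonneg F))
    · have e1 : h' ^ 2 ≤ 16 * h ^ 2 := by nlinarith
      have e2 := mul_le_mul_of_nonneg_left l3 (sq_nonneg h)
      have e3 := mul_le_mul_of_nonneg_left e1 (by positivity : 0 ≤ C₁ * ℓ)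
      have e4 : 0 ≤ C₁ * ℓ * h ^ 2 := by positivity
      nlinarith
    · have e1 := card_sep U (univ.filter fun f => flux g.A f = -1 ∧ ∃ z ∈ U, tdist z f ≤ ℓ')
        (r := ℓ') (by omega)
        (fun f hf f' hf' => hs f f' (mem_filter.1 hf).2.1 (mem_filter.1 hf').2.1)
        fun f hf => (mem_filter.1 hf).2.2
      rw [mul_div_assoc] at e1
      refine (R4a.pow_le_exp (by positivity) (by convert e1)).trans ?_
      rw [mul_div_assoc]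
      exact mul_le_mul (by linarith) (Real.exp_le_exp.2 (mul_le_mul_of_nonneg_right (by linarith)
        (by positivity))) (Real.exp_pos _).le (by positivity)
  · refine (h2 g hA ℓ ℓ' h h' β h8 (le_trans (mul_le_mul_of_nonneg_right (by linarith)
      (Nat.cast_nonneg ℓ)) hl) hM hh hh' h4 hβ hs U F hF hU h0).trans ?_
    exact mul_le_mul_of_nonneg_right (mul_le_mul_of_nonneg_right (by linarith)
      (Real.sqrt_nonneg _)) (RN.pn_nonneg F)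
end R4

end Geo

end Vale.Agent.P144Z
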